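import Vale.Agent.P269.Final

/-!
Virasoro constraints for complete intersections from the universal equations: genus 0; all genera
in low degree, hence all genera if the canonical class is nef; genus 1 in the Fano case.
-/

namespace Vale.Agent.Results.P269.Main

open Vale.Agent.P269 Vale.Agent.P269.GW

theorem result (Y : CI) (F : ℕ → A Y.tgt) (H : Base Y F) :
    (∀ n, Vir F n 0) ∧
    (2 ≤ Y.D → ∀ g d : ℕ, 1 ≤ g →
      (∀ (n : ℕ) l, (n : ℤ) ≤ Y.r * d - (Y.D - 3) * (g - 1) + 1 →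
        PowerSeries.coeff d (z F n g l) = 0) →
      ∀ n l, PowerSeries.coeff d (z F n g l) = 0) ∧
    (3 ≤ Y.D → Y.r ≤ 0 → ∀ n g, Vir F n g) ∧
    (TRR1 (F 0) (F 1) → Getzler (F 0) (F 1) → PrimEven Y (F 0) →
      (0 < Y.r → (∀ i, z F 2 1 [(0, Sum.inl i)] = 0) →
        (∀ l : List Y.P, z F 2 1 (l.map fun a => (0, Sum.inr a)) = 0) → ∀ n, Vir F n 1) ∧
      (PrimEven Y (F 1) → Rel Y (F 0) → 2 ≤ Y.r → Y.r + 1 ≤ Y.D →
        ((∀ k : ℕ, 1 ≤ k → Y.r ∣ k → k + Y.r + 1 ≤ Y.D → z F (k + 1) 1 [] = 0) →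
          (∀ (k : ℕ) (l : List Y.P), l.length = 2 * k → Y.r ∣ k * (Y.D - 2) + 1 →
            z F 2 1 (l.map fun a => (0, Sum.inr a)) = 0) → ∀ n, Vir F n 1) ∧
        (Y.D ≤ 2 * Y.r → ¬IsCoprime Y.r (Y.D - 2) → ∀ n, Vir F n 1))) :=
  ⟨H.genus0, fun hD => finite_many hD H.symm H.dim H.str, H.nef, fun t1 hg p0 =>
    ⟨H.one t1 hg p0, fun p1 hR hr hr' =>
      ⟨H.one' t1 hg p0 p1 hR hr hr', H.one'' t1 hg p0 p1 hR hr hr'⟩⟩⟩

end Vale.Agent.Results.P269.Main
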