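import Vale.Agent.P269.CIOk

/-!
Virasoro constraints of positive genus for complete intersections of dimension at least 3:
in each genus and degree finitely many constraints imply all of them, and if the canonical class is
nef the string equation and the `L_0` constraint imply all of them.
-/

namespace Vale.Agent.Results.P269.NefCanonical

open Vale.Agent.P269 Vale.Agent.P269.Tgt

theorem result (Y : CI) (hD : 3 ≤ Y.D) (F : ℕ → Y.tgt.S (PowerSeries ℂ))
    (hs : ∀ g, Ser.Symm (F g)) (hd : Dim Y.r F) (h0 : ∀ g, z F 0 g = 0) :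
    (∀ g d : ℕ, 1 ≤ g →
      (∀ (n : ℕ) l, (n : ℤ) ≤ Y.r * d - (Y.D - 3) * (g - 1) + 1 →
        PowerSeries.coeff d (z F n g l) = 0) →
      ∀ n l, PowerSeries.coeff d (z F n g l) = 0) ∧
    (Y.r ≤ 0 → (∀ g, z F 1 g = 0) → ∀ n g, 1 ≤ g → z F n g = 0) := by
  refine ⟨fun g d hg h n => ?_, fun hr h1 n g hg => ?_⟩
  · obtain ⟨g, rfl⟩ := Nat.exists_eq_add_of_le' hg
    refine Y.finite_many (by omega) F hs hd h0 g d (fun n l hn => h n l ?_) n
    simpa using hn
  · obtain ⟨g, rfl⟩ := Nat.exists_eq_add_of_le' hg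
    exact Y.nef hD hr F hs hd h0 h1 n g

end Vale.Agent.Results.P269.NefCanonical
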